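import Crest.Agent.R27.A.Gauss

/-!
Row 27: the abstract arithmetic API of helper19 (Basic, Rsum, Sym, Gam, Gauss).
-/
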