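import Crest.Agent.R27.Abs

/-!
Row 27, abstract API (owner helper19): norms, the additive character, angle, classes, Möbius function.
Port of `R17/A/Basic.lean`.
-/

set_option autoImplicit false
set_option linter.unusedSectionVars false

namespace Crest.Agent.R27.Ab

open scoped ComplexConjugate

variable {R : Type} [CommRing R] [IsDomain R] [IsPrincipalIdealRing R] [Ar R]

theorem card_quot (Q : R) : Nat.card (R ⧸ Ideal.span {Q}) = nN Q := rfl

theorem finite_quot {Q : R} (h : Q ≠ 0) : Finite (R ⧸ Ideal.span {Q}) := Ar.fin Q h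

instance infinite_R : Infinite R := Ar.inf

theorem isUnit_six : IsUnit (6 : R) := Ar.six

theorem isUnit_two : IsUnit (2 : R) := isUnit_of_dvd_unit ⟨3, by norm_num⟩ isUnit_six

theorem isUnit_three : IsUnit (3 : R) := isUnit_of_dvd_unit ⟨2, by norm_num⟩ isUnit_six

@[simp] theorem nN_zero : nN (0 : R) = 0 := by
  rw [nN, Ideal.span_singleton_zero, ← Submodule.cardQuot_apply]
  exact Submodule.cardQuot_bot R R

theorem nN_eq_zero {n : R} : nN n = 0 ↔ n = 0 := by
  refine ⟨fun h => ?_, fun h => h ▸ nN_zero⟩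
  by_contra hn
  have := finite_quot hn
  exact Nat.card_pos.ne' h

theorem nN_mul (a b : R) : nN (a * b) = nN a * nN b := by
  by_cases ha : a = 0
  · simp [ha]
  have h1 : (Ideal.span {a * b}).toAddSubgroup =
      (Ideal.span {b}).toAddSubgroup.map (AddMonoidHom.mulLeft a) := by
    ext x
    simp only [Submodule.mem_toAddSubgroup, Ideal.mem_span_singleton, AddSubgroup.mem_map,
      AddMonoidHom.coe_mulLeft]
    exact ⟨fun ⟨c, hc⟩ => ⟨b * c, dvd_mul_right _ _, by rw [hc, mul_assoc]⟩,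
      fun ⟨y, hy, hx⟩ => hx ▸ mul_dvd_mul_left a hy⟩
  have h2 : (Ideal.span {a}).toAddSubgroup = (AddMonoidHom.mulLeft a).range := by
    ext x
    simp only [Submodule.mem_toAddSubgroup, Ideal.mem_span_singleton, AddMonoidHom.mem_range,
      AddMonoidHom.coe_mulLeft]
    exact ⟨fun ⟨c, hc⟩ => ⟨c, hc.symm⟩, fun ⟨c, hc⟩ => ⟨c, hc.symm⟩⟩
  change (Ideal.span {a * b}).toAddSubgroup.index =
    (Ideal.span {a}).toAddSubgroup.index * (Ideal.span {b}).toAddSubgroup.index
  rw [h1, AddSubgroup.index_map_of_injective _ (mul_right_injective₀ ha), h2, mul_comm]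

theorem nm_mul (a b : R) : nm (a * b) = nm a * nm b := by
  simp [nm, nN_mul]

theorem nN_eq_one {n : R} : nN n = 1 ↔ IsUnit n := by
  rw [nN, ← Submodule.cardQuot_apply, Submodule.cardQuot_eq_one_iff, Ideal.span_singleton_eq_top]

@[simp] theorem nN_one : nN (1 : R) = 1 := nN_eq_one.2 isUnit_one

@[simp] theorem nm_one : nm (1 : R) = 1 := by
  simp [nm]

@[simp] theorem nm_zero : nm (0 : R) = 0 := by
  simp [nm]

@[simp] theorem nN_neg (a : R) : nN (-a) = nN a := by
  rw [nN, Ideal.span_singleton_neg, nN]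

@[simp] theorem nm_neg (a : R) : nm (-a) = nm a := by
  simp [nm]

theorem nN_pow (a : R) (k : ℕ) : nN (a ^ k) = nN a ^ k := by
  induction k with
  | zero => simp
  | succ k ih => rw [pow_succ, nN_mul, ih, pow_succ]

theorem nm_pow (a : R) (k : ℕ) : nm (a ^ k) = nm a ^ k := by
  simp [nm, nN_pow]

theorem nm_prod {ι : Type*} (s : Finset ι) (f : ι → R) : nm (∏ i ∈ s, f i) = ∏ i ∈ s, nm (f i) := by
  classical
  induction s using Finset.induction_on with
  | empty => simp
  | insert i s hi ih => rw [Finset.prod_insert hi, Finset.prod_insert hi, nm_mul, ih]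

theorem nm_eq_zero {n : R} : nm n = 0 ↔ n = 0 := by
  rw [nm, Nat.cast_eq_zero, nN_eq_zero]

theorem nm_nonneg (n : R) : 0 ≤ nm n := Nat.cast_nonneg _

theorem nm_pos {n : R} (h : n ≠ 0) : 0 < nm n := by
  exact lt_of_le_of_ne (nm_nonneg n) fun h' => h (nm_eq_zero.1 h'.symm)

theorem one_le_nm {n : R} (h : n ≠ 0) : 1 ≤ nm n := by
  have h1 : 1 ≤ nN n := Nat.one_le_iff_ne_zero.2 fun h' => h (nN_eq_zero.1 h')
  unfold nm
  exact_mod_cast h1

theorem nm_unit {n : R} (h : IsUnit n) : nm n = 1 := by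
  rw [nm, nN_eq_one.2 h, Nat.cast_one]

theorem nN_assoc {a b : R} (h : Associated a b) : nN a = nN b := by
  rw [nN, nN, Ideal.span_singleton_eq_span_singleton.2 h]

theorem nm_assoc {a b : R} (h : Associated a b) : nm a = nm b := by
  rw [nm, nm, nN_assoc h]

theorem nN_dvd {a b : R} (h : a ∣ b) : nN a ∣ nN b := by
  obtain ⟨c, rfl⟩ := h
  exact ⟨nN c, nN_mul a c⟩

theorem nm_le_of_dvd {a b : R} (h : a ∣ b) (hb : b ≠ 0) : nm a ≤ nm b := by
  have h1 := Nat.le_of_dvd (Nat.pos_of_ne_zero fun h' => hb (nN_eq_zero.1 h')) (nN_dvd h)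
  unfold nm
  exact_mod_cast h1

theorem associated_of_dvd_of_nN_eq {a b : R} (h : a ∣ b) (hn : nN a = nN b) : Associated a b := by
  obtain ⟨c, rfl⟩ := h
  by_cases ha : a = 0
  · simp [ha]
  · have h1 : nN a ≠ 0 := fun h' => ha (nN_eq_zero.1 h')
    rw [nN_mul] at hn
    have h2 : nN c = 1 := mul_left_cancel₀ h1 (by rw [← hn, mul_one])
    exact associated_mul_unit_right _ _ (nN_eq_one.1 h2)

theorem dvd_nN (n : R) : n ∣ (nN n : R) := by
  rw [← Ideal.mem_span_singleton, ← Ideal.Quotient.eq_zero_iff_mem, map_natCast, ← nsmul_one]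
  exact card_nsmul_eq_zero'

theorem two_le_nm {p : R} (hp : Prime p) : 2 ≤ nm p := by
  have h0 : nN p ≠ 0 := fun h' => hp.ne_zero (nN_eq_zero.1 h')
  have h1 : nN p ≠ 1 := fun h' => hp.not_isUnit (nN_eq_one.1 h')
  have h2 : 2 ≤ nN p := by omega
  unfold nm
  exact_mod_cast h2

/-- Fermat -/
theorem dvd_pow_nN_sub_one {p u : R} (hp : Prime p) (hu : ¬ p ∣ u) : p ∣ u ^ (nN p - 1) - 1 := by
  have hf := finite_quot hp.ne_zero
  have hm : (Ideal.span {p}).IsMaximal := PrincipalIdealRing.isMaximal_of_irreducible hp.irreducible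
  let _ := Ideal.Quotient.field (Ideal.span {p})
  let _ := Fintype.ofFinite (R ⧸ Ideal.span {p})
  have h1 : Ideal.Quotient.mk (Ideal.span {p}) u ≠ 0 := fun h =>
    hu (Ideal.mem_span_singleton.1 (Ideal.Quotient.eq_zero_iff_mem.1 h))
  have h2 := FiniteField.pow_card_sub_one_eq_one _ h1
  rw [← Nat.card_eq_fintype_card, card_quot] at h2
  rw [← Ideal.mem_span_singleton, ← Ideal.Quotient.eq, map_pow, map_one]
  exact h2

/-! ### The additive character -/

theorem eQ_add (y y' c : R) : eQ (y + y') c = eQ y c * eQ y' c := Ar.eQ_add y y' c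

@[simp] theorem norm_eQ (y c : R) : ‖eQ y c‖ = 1 := Ar.eQ_norm y c

theorem eQ_ne_zero (y c : R) : eQ y c ≠ 0 := norm_ne_zero_iff.1 (by simp)

@[simp] theorem eQ_zero (c : R) : eQ 0 c = 1 := by
  have h := eQ_add 0 0 c
  rw [add_zero] at h
  exact (mul_eq_left₀ (eQ_ne_zero 0 c)).1 h.symm

theorem eQ_neg (y c : R) : eQ (-y) c = conj (eQ y c) := by
  have h := eQ_add y (-y) c
  rw [add_neg_cancel, eQ_zero] at h
  have h2 : eQ y c * conj (eQ y c) = 1 := by rw [Complex.mul_conj', norm_eQ]; simp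
  exact mul_left_cancel₀ (eQ_ne_zero y c) (h.symm.trans h2.symm)

theorem eQ_mul_cancel {a : R} (ha : a ≠ 0) (y c : R) : eQ (a * y) (a * c) = eQ y c := by
  rw [mul_comm a, mul_comm a]
  exact Ar.eQ_mul y c a ha

theorem eQ_neg_right (y c : R) : eQ y (-c) = eQ (-y) c := by
  rw [← eQ_mul_cancel (a := -1) (by simp) y (-c)]
  simp

theorem eQ_of_dvd {y c : R} (h : c ∣ y) : eQ y c = 1 := by
  obtain ⟨k, rfl⟩ := h
  by_cases hc : c = 0
  · simp [hc]
  · have := eQ_mul_cancel hc k 1
    rw [mul_one] at this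
    rw [this]
    exact Ar.eQ_one k

theorem eQ_congr {y y' c : R} (h : c ∣ y - y') : eQ y c = eQ y' c := by
  have : y = (y - y') + y' := by ring
  rw [this, eQ_add, eQ_of_dvd h, one_mul]

theorem eQ_split {c₁ c₂ : R} (h₁ : c₁ ≠ 0) (h₂ : c₂ ≠ 0) (y₁ y₂ : R) :
    eQ (y₁ * c₂ + y₂ * c₁) (c₁ * c₂) = eQ y₁ c₁ * eQ y₂ c₂ := by
  rw [eQ_add, mul_comm y₂ c₁, eQ_mul_cancel h₁, mul_comm y₁ c₂, mul_comm c₁ c₂, eQ_mul_cancel h₂]

theorem eQ_eq_one_iff {h c : R} (hc : c ≠ 0) : (∀ y, eQ (h * y) c = 1) ↔ c ∣ h :=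
  ⟨Ar.eQ_dual h c hc, fun H y => eQ_of_dvd (H.mul_right y)⟩

theorem eQ_pow (y c : R) (k : ℕ) : eQ y c ^ k = eQ (k * y) c := by
  induction k with
  | zero => simp
  | succ k ih => rw [pow_succ, ih, ← eQ_add]; congr 1; push_cast; ring

/-! ### The angle -/

@[simp] theorem al_zero : al (0 : R) = 0 := Ar.al_zero

theorem al_mul (a b : R) : al (a * b) = al a * al b := by
  by_cases ha : a = 0
  · simp [ha]
  by_cases hb : b = 0
  · simp [hb]
  exact Ar.al_mul a b ha hb

theorem al_unit {u : R} (h : IsUnit u) : al u = 1 := Ar.al_unit u h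

@[simp] theorem al_one : al (1 : R) = 1 := al_unit isUnit_one

theorem norm_al {n : R} (h : n ≠ 0) : ‖al n‖ = 1 := Ar.al_norm n h

theorem al_assoc {a b : R} (h : Associated a b) : al a = al b := by
  obtain ⟨u, rfl⟩ := h
  rw [al_mul, al_unit u.isUnit, mul_one]

theorem al_pow (a : R) (k : ℕ) : al (a ^ k) = al a ^ k := by
  induction k with
  | zero => simp
  | succ k ih => rw [pow_succ, al_mul, ih, pow_succ]

theorem norm_al_le (n : R) : ‖al n‖ ≤ 1 := by
  by_cases h : n = 0
  · simp [h]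
  · exact (norm_al h).le

/-! ### Classes -/

theorem cls_mul {a b : R} (ha : a ≠ 0) (hb : b ≠ 0) : cls (a * b) = cls a * cls b := Ar.cls_mul a b ha hb

@[simp] theorem cls_one : cls (1 : R) = 1 := by
  have h := cls_mul (R := R) one_ne_zero one_ne_zero
  rw [mul_one] at h
  exact (mul_eq_left.1 h.symm)

theorem cls_pow {a : R} (ha : a ≠ 0) (k : ℕ) : cls (a ^ k) = cls a ^ k := by
  induction k with
  | zero => simp
  | succ k ih => rw [pow_succ, cls_mul (pow_ne_zero k ha) ha, ih, pow_succ]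

theorem hs_mul_left (x y z : Cl R) : hs (x * y) z = hs x z * hs y z := Ar.hs_mul_left x y z

theorem hs_mul_right (x y z : Cl R) : hs x (y * z) = hs x y * hs x z := Ar.hs_mul_right x y z

theorem hs_pow_six (x y : Cl R) : hs x y ^ 6 = 1 := Ar.hs_pow_six x y

@[simp] theorem norm_hs (x y : Cl R) : ‖hs x y‖ = 1 := by
  have h := congrArg norm (hs_pow_six x y)
  rw [norm_pow, norm_one] at h
  exact (pow_eq_one_iff_of_nonneg (norm_nonneg _) (by norm_num)).1 h

theorem hs_ne_zero (x y : Cl R) : hs x y ≠ 0 := norm_ne_zero_iff.1 (by simp)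

theorem hs_mul_conj (x y : Cl R) : hs x y * conj (hs x y) = 1 := by
  rw [Complex.mul_conj', norm_hs]; simp

@[simp] theorem hs_one_left (x : Cl R) : hs 1 x = 1 := by
  have h := hs_mul_left 1 1 x
  rw [mul_one] at h
  exact (mul_eq_left₀ (hs_ne_zero 1 x)).1 h.symm

@[simp] theorem hs_one_right (x : Cl R) : hs x 1 = 1 := by
  have h := hs_mul_right x 1 1
  rw [mul_one] at h
  exact (mul_eq_left₀ (hs_ne_zero x 1)).1 h.symm

theorem hs_pow_left (x y : Cl R) (k : ℕ) : hs (x ^ k) y = hs x y ^ k := by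
  induction k with
  | zero => simp
  | succ k ih => rw [pow_succ, hs_mul_left, ih, pow_succ]

theorem hs_pow_right (x y : Cl R) (k : ℕ) : hs x (y ^ k) = hs x y ^ k := by
  induction k with
  | zero => simp
  | succ k ih => rw [pow_succ, hs_mul_right, ih, pow_succ]

theorem hs_inv_left (x y : Cl R) : hs x⁻¹ y = conj (hs x y) := by
  refine mul_left_cancel₀ (hs_ne_zero x y) ?_
  rw [← hs_mul_left, mul_inv_cancel, hs_one_left, hs_mul_conj]

theorem hs_inv_right (x y : Cl R) : hs x y⁻¹ = conj (hs x y) := by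
  refine mul_left_cancel₀ (hs_ne_zero x y) ?_
  rw [← hs_mul_right, mul_inv_cancel, hs_one_right, hs_mul_conj]

/-! ### The Möbius function -/

@[simp] theorem mu_one : mu (1 : R) = 1 := by
  simp [mu]

theorem mu_unit {u : R} (h : IsUnit u) : mu u = 1 := by
  simp [mu, h.squarefree, UniqueFactorizationMonoid.factors_of_isUnit h]

theorem mu_prime {p : R} (hp : Prime p) : mu p = -1 := by
  simp [mu, hp.squarefree, UniqueFactorizationMonoid.card_factors_of_irreducible hp.irreducible]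

theorem mu_assoc {a b : R} (h : Associated a b) : mu a = mu b := by
  unfold mu
  rw [Multiset.card_eq_card_of_rel (UniqueFactorizationMonoid.factors_rel_of_associated h)]
  by_cases ha : Squarefree a
  · rw [if_pos ha, if_pos (h.squarefree_iff.1 ha)]
  · rw [if_neg ha, if_neg fun hb => ha (h.squarefree_iff.2 hb)]

theorem mu_mul {a b : R} (h : IsCoprime a b) : mu (a * b) = mu a * mu b := by
  by_cases ha : Squarefree a
  · by_cases hb : Squarefree b
    · have hab : Squarefree (a * b) := squarefree_mul_iff.2 ⟨h.isRelPrime, ha, hb⟩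
      simp only [mu, ha, hb, hab, if_true, Multiset.card_eq_card_of_rel
        (UniqueFactorizationMonoid.factors_mul ha.ne_zero hb.ne_zero), Multiset.card_add, pow_add]
    · have hab : ¬ Squarefree (a * b) := fun h => hb h.of_mul_right
      simp [mu, hb, hab]
  · have hab : ¬ Squarefree (a * b) := fun h => ha h.of_mul_left
    simp [mu, ha, hab]

open Classical in
theorem mu_mul' (a b : R) : mu (a * b) = if IsCoprime a b then mu a * mu b else 0 := by
  split_ifs with h
  · exact mu_mul h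
  · have hab : ¬ Squarefree (a * b) := fun h' => h (squarefree_mul_iff.1 h').1.isCoprime
    simp [mu, hab]

theorem mu_eq_zero {n : R} : mu n = 0 ↔ ¬ Squarefree n := by
  by_cases h : Squarefree n <;> simp [mu, h]

open Classical in
theorem mu_sq (n : R) : mu n ^ 2 = if Squarefree n then 1 else 0 := by
  by_cases h : Squarefree n
  · simp only [mu, h, if_true]
    rw [← pow_mul, mul_comm, pow_mul, neg_one_sq, one_pow]
  · simp [mu, h]

theorem norm_mu_le (n : R) : ‖mu n‖ ≤ 1 := by
  by_cases h : Squarefree n <;> simp [mu, h]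

theorem conj_mu (n : R) : conj (mu n) = mu n := by
  by_cases h : Squarefree n <;> simp [mu, h]

end Crest.Agent.R27.Ab
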