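import Crest.Agent.R27.A.Sym

/-!
Row 27, abstract API (owner helper19): quadratic Gauss sums.  Port of `R17/A/Gam.lean`; `eps a b = hs (cls a) (cls b) ^ 3`.
-/

set_option autoImplicit false
set_option linter.unusedSectionVars false

namespace Crest.Agent.R27.Ab

open scoped ComplexConjugate

variable {R : Type} [CommRing R] [IsDomain R] [IsPrincipalIdealRing R] [Ar R]

theorem gam_unit {u : R} (h : IsUnit u) : gam u = 1 := by
  have hper : Per u fun y => eQ (y ^ 2) u := fun a b _ => eQ_congr h.dvd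
  rw [gam, rsum_unit h hper, nm_unit h]
  simp

@[simp] theorem gam_one : gam (1 : R) = 1 := gam_unit isUnit_one

theorem gam_cls {a b : R} (ha : a ≠ 0) (hb : b ≠ 0) (h : cls a = cls b) : gam a = gam b := Ar.gam_cls a b ha hb h

theorem gam_neg (c : R) : gam (-c) = conj (gam c) := by
  rw [gam, gam, rsum_assoc (Associated.refl c).neg_left, nm_neg, map_div₀, conj_rsum,
    Complex.conj_ofReal]
  simp only [eQ_neg_right, eQ_neg]

/-- the quadratic Gauss sum `G(a; c)` -/
noncomputable def gac_G (a c : R) : ℂ := rsum c fun y => eQ (a * y ^ 2) c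

theorem gac_per (a c : R) : Per c fun y => eQ (a * y ^ 2) c := by
  intro y y' h
  apply eQ_congr
  have : a * y ^ 2 - a * y' ^ 2 = (y - y') * (a * (y + y')) := by ring
  rw [this]
  exact h.mul_right _

theorem gac_sqrt_ne {c : R} (hc : c ≠ 0) : (Real.sqrt (nm c) : ℂ) ≠ 0 :=
  Complex.ofReal_ne_zero.2 (Real.sqrt_pos.2 (nm_pos hc)).ne'

theorem gac_G_one {c : R} (hc : c ≠ 0) : gac_G 1 c = gam c * (Real.sqrt (nm c) : ℂ) := by
  rw [gam, div_mul_cancel₀ _ (gac_sqrt_ne hc), gac_G]
  simp only [one_mul]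

theorem gac_mul {c₁ c₂ : R} (h₁ : c₁ ≠ 0) (h₂ : c₂ ≠ 0) (h : IsCoprime c₁ c₂) (a : R) :
    gac_G a (c₁ * c₂) = gac_G (a * c₂) c₁ * gac_G (a * c₁) c₂ := by
  rw [gac_G, rsum_crt h₁ h₂ h (gac_per a _), gac_G, gac_G, ← rsum_mul_right]
  congr 1
  funext y
  rw [← rsum_mul_left]
  congr 1
  funext z
  rw [← eQ_split h₁ h₂]
  apply eQ_congr
  exact ⟨2 * a * y * z, by ring⟩

theorem gac_sq {p c a : R} (hp : Prime p) (hc : c ≠ 0) (h2 : ¬ p ∣ 2) (ha : ¬ p ∣ a) :
    gac_G a (p * c * p) = nm p * gac_G a c := by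
  classical
  have hp0 := hp.ne_zero
  have hpc : p * c ≠ 0 := mul_ne_zero hp0 hc
  set f : R → ℂ := fun y => if p ∣ y then eQ (a * y ^ 2) (p * c * p) else 0 with hf
  have hper : Per (p * c) f := by
    intro y y' hyy
    obtain ⟨t, ht⟩ := hyy
    have hy : y = y' + p * c * t := by rw [← ht]; ring
    by_cases hd : p ∣ y'
    · have hd' : p ∣ y := by rw [hy]; exact dvd_add hd ⟨c * t, by ring⟩
      simp only [hf, if_pos hd, if_pos hd']
      apply eQ_congr
      obtain ⟨s, rfl⟩ := hd
      rw [hy]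
      exact ⟨a * t * (2 * s + c * t), by ring⟩
    · have hd' : ¬ p ∣ y := by
        intro h
        apply hd
        have : y' = y - p * (c * t) := by rw [hy]; ring
        rw [this]
        exact dvd_sub h (dvd_mul_right _ _)
      simp only [hf, if_neg hd, if_neg hd']
  have hin : ∀ y, (rsum p fun z => eQ (a * (y + p * c * z) ^ 2) (p * c * p)) =
      nm p * (if p ∣ y then f y else 0) := by
    intro y
    have e : ∀ z, eQ (a * (y + p * c * z) ^ 2) (p * c * p) =
        eQ (a * y ^ 2) (p * c * p) * eQ (2 * a * y * z) p := by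
      intro z
      rw [← eQ_mul_cancel hpc (2 * a * y * z) p, ← eQ_add]
      apply eQ_congr
      exact ⟨a * c * z ^ 2, by ring⟩
    simp only [e]
    rw [rsum_mul_left, rsum_eQ hp0]
    by_cases hd : p ∣ y
    · rw [if_pos (hd.mul_left _), if_pos hd]
      simp only [hf, if_pos hd]
      ring
    · have : ¬ p ∣ 2 * a * y := by
        intro h
        rcases hp.dvd_or_dvd h with h | h
        · rcases hp.dvd_or_dvd h with h | h
          · exact h2 h
          · exact ha h
        · exact hd h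
      rw [if_neg this, if_neg hd]
      simp
  rw [gac_G, rsum_tower hpc hp0 (gac_per a _)]
  simp only [hin]
  rw [rsum_mul_left, rsum_dvd hp0 hc hper, gac_G]
  congr 2
  funext z
  simp only [hf, if_pos (dvd_mul_right p z)]
  rw [← eQ_mul_cancel (mul_ne_zero hp0 hp0) (a * z ^ 2) c]
  congr 1 <;> ring

theorem gac_cube_sq {a c : R} (hc : c ≠ 0) (h : IsCoprime a c) :
    sx a c ^ 3 * sx a c ^ 3 = 1 := by
  classical
  have := sx_pow_six a c
  rw [if_pos ⟨hc, h⟩] at this
  rw [← this]; ring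

theorem gac_prime_aux {p a : R} (hp : Prime p) (ha : ¬ p ∣ a) :
    gac_G a p = rsum p fun y => sx y p ^ 3 * eQ (a * y) p := by
  classical
  have h := rsum_sq hp (per_eQ a p)
  rw [gac_G, h]
  simp only [add_mul, one_mul]
  rw [rsum_add hp.ne_zero, rsum_eQ hp.ne_zero, if_neg ha, zero_add]

theorem gac_prime {p a : R} (hp : Prime p) (ha : IsCoprime a p) :
    gac_G a p = sx a p ^ 3 * gac_G 1 p := by
  have ha' : ¬ p ∣ a := fun h => hp.not_isUnit (ha.isUnit_of_dvd' h dvd_rfl)
  have hper : Per p fun y => sx y p ^ 3 * eQ (1 * y) p :=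
    ((per_sx p).comp fun z => z ^ 3).mul (per_eQ 1 p)
  have h1 := rsum_mul_arg hp.ne_zero ha hper
  rw [gac_prime_aux hp ha', gac_prime_aux hp hp.not_dvd_one, ← h1, ← rsum_mul_left]
  congr 1
  funext y
  rw [sx_mul_left, mul_pow, one_mul]
  linear_combination (-(sx y p ^ 3 * eQ (a * y) p)) * gac_cube_sq hp.ne_zero ha

theorem gac_main (N : ℕ) : ∀ c : R, nN c = N → c ≠ 0 → ∀ a : R, IsCoprime a c →
    gac_G a c = sx a c ^ 3 * gac_G 1 c := by
  induction N using Nat.strong_induction_on with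
  | _ N ih =>
  intro c hN hc a ha
  have hc0 := hc
  by_cases hu : IsUnit c
  · rw [gac_G, gac_G, rsum_unit hu (gac_per a c), rsum_unit hu (gac_per 1 c), sx_unit_right _ hu]
    simp
  obtain ⟨p, hp, c', rfl⟩ := WfDvdMonoid.exists_irreducible_factor hu hc0
  have hp : Prime p := hp.prime
  have hc'0 : c' ≠ 0 := right_ne_zero_of_mul hc0
  have hap : IsCoprime a p := ha.of_mul_right_left
  have hac' : IsCoprime a c' := ha.of_mul_right_right
  have hp2 : 2 ≤ nN p := by
    have := two_le_nm hp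
    rw [nm] at this
    exact_mod_cast this
  have hlt : ∀ d : R, d ≠ 0 → nN d < nN (p * d) := by
    intro d hd
    have h1 : 0 < nN d := Nat.pos_of_ne_zero fun h => hd (nN_eq_zero.1 h)
    rw [nN_mul]
    nlinarith
  by_cases hd : p ∣ c'
  · obtain ⟨d, rfl⟩ := hd
    have hd0 : d ≠ 0 := right_ne_zero_of_mul hc'0
    have h2 : ¬ p ∣ 2 := fun h =>
      hp.not_isUnit (isUnit_of_dvd_unit h isUnit_two)
    have ha' : ¬ p ∣ a := fun h => hp.not_isUnit (hap.isUnit_of_dvd' h dvd_rfl)
    have e : p * (p * d) = p * d * p := by ring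
    have hI := ih (nN d) (by rw [← hN]; exact (hlt d hd0).trans (hlt _ hc'0)) d rfl
      hd0 a hac'.of_mul_right_right
    rw [e, gac_sq hp hd0 h2 ha', gac_sq hp hd0 h2 hp.not_dvd_one, hI, sx_mul_right, sx_mul_right]
    linear_combination (-(nm p * sx a d ^ 3 * gac_G 1 d)) * gac_cube_sq hp.ne_zero hap
  · have hpc : IsCoprime p c' := (Prime.coprime_iff_not_dvd hp).2 hd
    have hI := ih (nN c') (by rw [← hN]; exact hlt c' hc'0) c' rfl hc'0
    rw [gac_mul hp.ne_zero hc'0 hpc, gac_mul hp.ne_zero hc'0 hpc,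
      gac_prime hp (hap.mul_left hpc.symm), hI _ (hac'.mul_left hpc), one_mul, one_mul,
      gac_prime hp hpc.symm, hI _ hpc, sx_mul_left, sx_mul_left, sx_mul_right]
    ring

/-- twisting the quadratic Gauss sum -/
theorem rsum_eQ_sq {a c : R} (hc : c ≠ 0) (h : IsCoprime a c) :
    rsum c (fun y => eQ (a * y ^ 2) c) = sx a c ^ 3 * (gam c * (Real.sqrt (nm c) : ℂ)) := by
  have h0 := hc
  have h1 : gam c * (Real.sqrt (nm c) : ℂ) = gac_G 1 c := (gac_G_one h0).symm
  rw [h1]
  exact gac_main (nN c) c rfl hc a h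

/-- the modulus of the quadratic Gauss sum (no use of `gam_cls`) -/
theorem gam_mul_conj {c : R} (hc : c ≠ 0) : gam c * conj (gam c) = 1 := by
  classical
  have h1 : gac_G 1 c * conj (gac_G 1 c) = nm c := by
    have e1 : ∀ y, gac_G 1 c = rsum c fun h => eQ (1 * (h + y) ^ 2) c := fun y =>
      (rsum_shift hc (gac_per 1 c) y).symm
    calc gac_G 1 c * conj (gac_G 1 c)
        = rsum c fun y => rsum c fun h => eQ (1 * h ^ 2) c * eQ (2 * h * y) c := by
          conv_lhs => rw [gac_G.eq_1 1 c, conj_rsum, ← gac_G.eq_1, ← rsum_mul_left]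
          congr 1
          funext y
          rw [e1 y, ← rsum_mul_right]
          congr 1
          funext h
          rw [← eQ_neg, ← eQ_add, ← eQ_add]
          congr 1
          ring
      _ = rsum c fun h => if c ∣ h - 0 then eQ (1 * h ^ 2) c * nm c else 0 := by
          rw [rsum_comm hc hc]
          congr 1
          funext h
          rw [rsum_mul_left, rsum_eQ hc, sub_zero, isUnit_two.dvd_mul_left]
          split_ifs <;> simp
      _ = nm c := by
          rw [rsum_ite hc ((gac_per 1 c).comp (· * (nm c : ℂ)))]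
          simp
  have h2 : (Real.sqrt (nm c) : ℂ) ^ 2 = nm c := by exact_mod_cast Real.sq_sqrt (nm_nonneg c)
  rw [gac_G_one hc, map_mul, Complex.conj_ofReal, ← h2] at h1
  exact mul_right_cancel₀ (pow_ne_zero 2 (gac_sqrt_ne hc)) (by linear_combination h1)

theorem norm_gam {c : R} (hc : c ≠ 0) : ‖gam c‖ = 1 := by
  have h := gam_mul_conj hc
  rw [Complex.mul_conj'] at h
  have h2 : ‖gam c‖ ^ 2 = 1 := by exact_mod_cast h
  exact (pow_eq_one_iff_of_nonneg (norm_nonneg _) two_ne_zero).1 h2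

theorem norm_gam_le (c : R) : ‖gam c‖ ≤ 1 := by
  by_cases hc : c = 0
  · simp [hc, gam]
  · exact (norm_gam hc).le

theorem conj_gam {c : R} (hc : c ≠ 0) : conj (gam c) = sx (-1) c * gam c := by
  have h := rsum_eQ_sq hc (a := -1) isCoprime_one_left.neg_left
  have h2 : conj (gac_G 1 c) = rsum c fun y => eQ (-1 * y ^ 2) c := by
    rw [gac_G, conj_rsum]
    simp only [← eQ_neg, neg_mul]
  rw [← h2, gac_G_one hc, map_mul, Complex.conj_ofReal, sx_neg_one_cube] at h
  exact mul_right_cancel₀ (gac_sqrt_ne hc) (by linear_combination h)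

theorem gam_sq' {c : R} (hc : c ≠ 0) : gam c ^ 2 = sx (-1) c := by
  have h1 := gam_mul_conj hc
  have h2 := sx_neg_one_sq hc
  rw [conj_gam hc] at h1
  linear_combination sx (-1) c * h1 - gam c ^ 2 * h2

/-- the quadratic reciprocity sign, a bimultiplicative function of the classes -/
noncomputable def eps (a b : R) : ℂ := hs (cls a) (cls b) ^ 3

theorem eps_mul_self (a b : R) : eps a b * eps a b = 1 := by
  rw [eps, ← pow_add, hs_pow_six]

theorem eps_eq_or (a b : R) : eps a b = 1 ∨ eps a b = -1 := mul_self_eq_one_iff.1 (eps_mul_self a b)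

theorem norm_eps (a b : R) : ‖eps a b‖ = 1 := by simp [eps]

theorem conj_eps (a b : R) : conj (eps a b) = eps a b := by
  rcases eps_eq_or a b with h | h <;> rw [h] <;> simp

theorem eps_comm {a b : R} (ha : a ≠ 0) (hb : b ≠ 0) : eps a b = eps b a := by
  rw [← conj_eps a b, eps, eps, hs_swap ha hb, map_pow]

theorem eps_mul_left {a a' : R} (ha : a ≠ 0) (ha' : a' ≠ 0) (b : R) : eps (a * a') b = eps a b * eps a' b := by
  rw [eps, cls_mul ha ha', hs_mul_left, mul_pow, eps, eps]

theorem eps_mul_right (a : R) {b b' : R} (hb : b ≠ 0) (hb' : b' ≠ 0) : eps a (b * b') = eps a b * eps a b' := by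
  rw [eps, cls_mul hb hb', hs_mul_right, mul_pow, eps, eps]

theorem eps_self {a : R} (ha : a ≠ 0) : eps a a = sx (-1) a := by rw [eps, hs_diag ha, sx_neg_one_cube]

/-- quadratic reciprocity -/
theorem sx_cube_recip {a b : R} (ha : a ≠ 0) (hb : b ≠ 0) : sx a b ^ 3 = sx b a ^ 3 * eps a b := by
  rw [sx_recip ha hb, mul_pow, mul_comm, eps]

theorem gam_mul_coprime {a b : R} (ha : a ≠ 0) (hb : b ≠ 0) (h : IsCoprime a b) :
    gam (a * b) = sx a b ^ 3 * sx b a ^ 3 * gam a * gam b := by
  have h1 := gac_mul ha hb h 1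
  rw [one_mul, one_mul, gac_main _ a rfl ha b h.symm, gac_main _ b rfl hb a h, gac_G_one ha, gac_G_one hb,
    gac_G_one (mul_ne_zero ha hb), nm_mul, Real.sqrt_mul (nm_nonneg a)] at h1
  push_cast at h1
  exact mul_right_cancel₀ (mul_ne_zero (gac_sqrt_ne ha) (gac_sqrt_ne hb)) (by linear_combination h1)

theorem gad_coprime {a b : R} (ha : a ≠ 0) (hb : b ≠ 0) (h : IsCoprime a b) :
    gam (a * b) = eps a b * gam a * gam b := by
  have h1 := gac_cube_sq ha h.symm
  rw [gam_mul_coprime ha hb h, sx_cube_recip ha hb]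
  linear_combination eps a b * gam a * gam b * h1

theorem gad_sq {p c : R} (hp : Prime p) (hc : c ≠ 0) : gam (p * c * p) = gam c := by
  have h := gac_sq (a := 1) hp hc (fun h => hp.not_isUnit (isUnit_of_dvd_unit h isUnit_two)) hp.not_dvd_one
  have h2 : (Real.sqrt (nm p) : ℂ) ^ 2 = nm p := by exact_mod_cast Real.sq_sqrt (nm_nonneg p)
  rw [gac_G_one hc, gac_G_one (mul_ne_zero (mul_ne_zero hp.ne_zero hc) hp.ne_zero), nm_mul, nm_mul,
    Real.sqrt_mul (mul_nonneg (nm_nonneg p) (nm_nonneg c)), Real.sqrt_mul (nm_nonneg p), ← h2] at h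
  push_cast at h
  exact mul_right_cancel₀ (mul_ne_zero (pow_ne_zero 2 (gac_sqrt_ne hp.ne_zero)) (gac_sqrt_ne hc))
    (by linear_combination h)

theorem gad_prime {p : R} (hp : Prime p) (N : ℕ) :
    ∀ b : R, nN b = N → b ≠ 0 → gam (p * b) = eps p b * gam p * gam b := by
  induction N using Nat.strong_induction_on with
  | _ N ih =>
  intro b hN hb
  by_cases hd : p ∣ b
  · obtain ⟨d, rfl⟩ := hd
    have hd0 : d ≠ 0 := right_ne_zero_of_mul hb
    have hp2 : 2 ≤ nN p := by
      have := two_le_nm hp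
      rw [nm] at this
      exact_mod_cast this
    have h1 : 0 < nN d := Nat.pos_of_ne_zero fun h => hd0 (nN_eq_zero.1 h)
    have hI := ih (nN d) (by rw [← hN, nN_mul]; nlinarith) d rfl hd0
    have h2 := gam_sq' hp.ne_zero
    have h3 := sx_neg_one_sq hp.ne_zero
    have h4 := eps_mul_self p d
    rw [show p * (p * d) = p * d * p by ring, gad_sq hp hd0, hI, eps_mul_right p hp.ne_zero hd0,
      eps_self hp.ne_zero]
    linear_combination (-(gam d * sx (-1) p * eps p d * eps p d)) * h2 - gam d * eps p d * eps p d * h3 -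
      gam d * h4
  · exact gad_coprime hp.ne_zero hb (hp.coprime_iff_not_dvd.2 hd)

/-- for all non-zero `a`, `b` -/
theorem gam_mul {a b : R} (ha : a ≠ 0) (hb : b ≠ 0) : gam (a * b) = eps a b * gam a * gam b := by
  induction a using UniqueFactorizationMonoid.induction_on_prime with
  | h₁ => exact absurd rfl ha
  | h₂ u hu => exact gad_coprime ha hb (by obtain ⟨v, hv⟩ := hu.exists_left_inv; exact ⟨v, 0, by simpa using hv⟩)
  | h₃ a p ha' hp ih =>
    have h4 := eps_mul_self p a
    rw [mul_assoc, gad_prime hp _ _ rfl (mul_ne_zero ha' hb), ih ha', gad_prime hp _ _ rfl ha',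
      eps_mul_left hp.ne_zero ha', eps_mul_right p ha' hb]
    ring

theorem gam_mul_sq {c b : R} (hc : c ≠ 0) (hb : b ≠ 0) : gam (c * b ^ 2) = gam c := by
  have h1 := gam_sq' hb
  have h2 := sx_neg_one_sq hb
  have h3 := eps_mul_self c b
  rw [gam_mul hc (pow_ne_zero 2 hb), sq, gam_mul hb hb, eps_mul_right c hb hb, eps_self hb]
  linear_combination (gam c * sx (-1) b * eps c b * eps c b) * h1 + gam c * eps c b * eps c b * h2 + gam c * h3

end Crest.Agent.R27.Ab
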