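import Crest.Agent.R27.A.Basic

/-!
Row 27, abstract API (owner helper19): complete sums and finite Fourier transforms.  Port of `R17/A/Rsum.lean`.
-/

set_option autoImplicit false
set_option linter.unusedSectionVars false

namespace Crest.Agent.R27.Ab

open scoped ComplexConjugate

variable {R : Type} [CommRing R] [IsDomain R] [IsPrincipalIdealRing R] [Ar R]

theorem Per.mono {Q Q' : R} {f : R → ℂ} (h : Per Q f) (hQ : Q ∣ Q') : Per Q' f :=
  fun a b hab => h a b (hQ.trans hab)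

theorem Per.mul {Q : R} {f g : R → ℂ} (hf : Per Q f) (hg : Per Q g) : Per Q fun y => f y * g y :=
  fun a b hab => by simp only [hf a b hab, hg a b hab]

theorem Per.comp {Q : R} {f : R → ℂ} (hf : Per Q f) (F : ℂ → ℂ) : Per Q fun y => F (f y) :=
  fun a b hab => by simp only [hf a b hab]

theorem Per.affine {Q : R} {f : R → ℂ} (hf : Per Q f) (a b : R) : Per Q fun y => f (a * y + b) := by
  intro y y' h
  refine hf _ _ ?_
  have : a * y + b - (a * y' + b) = a * (y - y') := by ring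
  rw [this]; exact h.mul_left a

theorem per_eQ (h Q : R) : Per Q fun y => eQ (h * y) Q := by
  intro y y' hy
  refine eQ_congr ?_
  rw [← mul_sub]; exact hy.mul_left h

theorem rsa_mk_eq {Q a b : R} :
    Ideal.Quotient.mk (Ideal.span {Q}) a = Ideal.Quotient.mk (Ideal.span {Q}) b ↔ Q ∣ a - b := by
  rw [Ideal.Quotient.eq, Ideal.mem_span_singleton]

theorem rsa_dvd_out (Q a : R) :
    Q ∣ a - Quotient.out (Ideal.Quotient.mk (Ideal.span {Q}) a) := by
  rw [← rsa_mk_eq, Ideal.Quotient.mk_out]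

theorem Per.bdd {Q : R} {f : R → ℂ} (hf : Per Q f) (hQ : Q ≠ 0) : ∃ B : ℝ, ∀ y, ‖f y‖ ≤ B := by
  have := finite_quot hQ
  obtain ⟨B, hB⟩ := (Set.finite_range fun x : R ⧸ Ideal.span {Q} => ‖f (Quotient.out x)‖).bddAbove
  refine ⟨B, fun y => ?_⟩
  rw [hf y _ (rsa_dvd_out Q y)]
  exact hB ⟨_, rfl⟩

open Classical in
/-- a complete residue system -/
noncomputable def res (Q : R) : Finset R :=
  if h : (Set.range (Quotient.out : R ⧸ Ideal.span {Q} → R)).Finite then h.toFinset else ∅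

open Classical in
theorem rsa_res_eq (Q : R) [Fintype (R ⧸ Ideal.span {Q})] :
    res Q = Finset.univ.image (Quotient.out : R ⧸ Ideal.span {Q} → R) := by
  ext y
  rw [res, dif_pos (Set.finite_range _)]
  simp

theorem rsa_mem_res {Q y : R} (hy : y ∈ res Q) :
    ∃ x : R ⧸ Ideal.span {Q}, Quotient.out x = y := by
  unfold res at hy
  split_ifs at hy with h
  · exact h.mem_toFinset.1 hy
  · simp at hy

theorem rsum_eq_sum {Q : R} (hQ : Q ≠ 0) (f : R → ℂ) : rsum Q f = ∑ y ∈ res Q, f y := by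
  classical
  have := finite_quot hQ
  have := Fintype.ofFinite (R ⧸ Ideal.span {Q})
  rw [rsum, finsum_eq_sum_of_fintype, rsa_res_eq,
    Finset.sum_image fun _ _ _ _ h => Quotient.out_injective h]
  rfl

theorem card_res {Q : R} (hQ : Q ≠ 0) : (res Q).card = nN Q := by
  classical
  have := finite_quot hQ
  have := Fintype.ofFinite (R ⧸ Ideal.span {Q})
  rw [rsa_res_eq, Finset.card_image_of_injective _ Quotient.out_injective, ← card_quot,
    Nat.card_eq_fintype_card]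
  rfl

theorem exists_res {Q : R} (hQ : Q ≠ 0) (a : R) : ∃ y ∈ res Q, Q ∣ a - y := by
  classical
  have := finite_quot hQ
  have := Fintype.ofFinite (R ⧸ Ideal.span {Q})
  refine ⟨_, ?_, rsa_dvd_out Q a⟩
  rw [rsa_res_eq]
  exact Finset.mem_image_of_mem _ (Finset.mem_univ _)

theorem res_inj {Q y y' : R} (hy : y ∈ res Q) (hy' : y' ∈ res Q) (h : Q ∣ y - y') : y = y' := by
  obtain ⟨x, rfl⟩ := rsa_mem_res hy
  obtain ⟨x', rfl⟩ := rsa_mem_res hy'
  rw [← rsa_mk_eq, Ideal.Quotient.mk_out, Ideal.Quotient.mk_out] at h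
  rw [h]

/-- any (parametrised) residue system computes `rsum` -/
theorem rsum_eq_of_system {ι : Type*} {Q : R} (hQ : Q ≠ 0) {f : R → ℂ} (hf : Per Q f)
    (S : Finset ι) (g : ι → R) (h₁ : ∀ a, ∃ i ∈ S, Q ∣ a - g i)
    (h₂ : ∀ i ∈ S, ∀ j ∈ S, Q ∣ g i - g j → i = j) : rsum Q f = ∑ i ∈ S, f (g i) := by
  have := finite_quot hQ
  have := Fintype.ofFinite (R ⧸ Ideal.span {Q})
  rw [rsum, finsum_eq_sum_of_fintype]
  symm
  refine Finset.sum_bij (fun i _ => Ideal.Quotient.mk (Ideal.span {Q}) (g i))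
    (fun _ _ => Finset.mem_univ _) (fun i hi j hj h => h₂ i hi j hj (rsa_mk_eq.1 h))
    (fun x _ => ?_) (fun i _ => hf _ _ (rsa_dvd_out Q _))
  obtain ⟨i, hi, h⟩ := h₁ (Quotient.out x)
  exact ⟨i, hi, by rw [← rsa_mk_eq.2 h, Ideal.Quotient.mk_out]⟩

theorem rsum_eq_quot {Q : R} [Fintype (R ⧸ Ideal.span {Q})] (F : R ⧸ Ideal.span {Q} → ℂ) :
    rsum Q (fun y => F (Ideal.Quotient.mk _ y)) = ∑ x, F x := by
  rw [rsum, finsum_eq_sum_of_fintype]
  simp only [Ideal.Quotient.mk_out]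

theorem rsum_assoc {Q Q' : R} (h : Associated Q Q') (f : R → ℂ) : rsum Q f = rsum Q' f := by
  have e : Ideal.span {Q} = Ideal.span {Q'} := Ideal.span_singleton_eq_span_singleton.2 h
  exact congrArg (fun I : Ideal R => ∑ᶠ y : R ⧸ I, f (Quotient.out y)) e

@[simp] theorem rsum_zero (Q : R) : rsum Q (fun _ => 0) = 0 := by
  simp [rsum]

theorem rsum_add {Q : R} (hQ : Q ≠ 0) (f g : R → ℂ) :
    rsum Q (fun y => f y + g y) = rsum Q f + rsum Q g := by
  simp only [rsum_eq_sum hQ, Finset.sum_add_distrib]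

theorem rsum_sub {Q : R} (hQ : Q ≠ 0) (f g : R → ℂ) :
    rsum Q (fun y => f y - g y) = rsum Q f - rsum Q g := by
  simp only [rsum_eq_sum hQ, Finset.sum_sub_distrib]

theorem rsum_mul_left (Q : R) (c : ℂ) (f : R → ℂ) : rsum Q (fun y => c * f y) = c * rsum Q f := by
  simp only [rsum]
  rw [mul_finsum]

theorem rsum_mul_right (Q : R) (c : ℂ) (f : R → ℂ) : rsum Q (fun y => f y * c) = rsum Q f * c := by
  simp only [mul_comm _ c, rsum_mul_left]

theorem rsum_sum {ι : Type*} {Q : R} (hQ : Q ≠ 0) (S : Finset ι) (f : ι → R → ℂ) :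
    rsum Q (fun y => ∑ i ∈ S, f i y) = ∑ i ∈ S, rsum Q (f i) := by
  simp only [rsum_eq_sum hQ]
  exact Finset.sum_comm

theorem rsum_comm {Q T : R} (hQ : Q ≠ 0) (hT : T ≠ 0) (f : R → R → ℂ) :
    rsum Q (fun y => rsum T fun z => f y z) = rsum T fun z => rsum Q fun y => f y z := by
  simp only [rsum_eq_sum hQ, rsum_eq_sum hT]
  exact Finset.sum_comm

theorem rsum_const {Q : R} (hQ : Q ≠ 0) (c : ℂ) : rsum Q (fun _ => c) = nm Q * c := by
  rw [rsum_eq_sum hQ, Finset.sum_const, card_res hQ, nsmul_eq_mul, nm]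
  simp

theorem conj_rsum (Q : R) (f : R → ℂ) : conj (rsum Q f) = rsum Q fun y => conj (f y) := by
  simp only [rsum]
  exact (starRingAut : RingAut ℂ).toAddEquiv.map_finsum _

theorem norm_rsum_le {Q : R} (hQ : Q ≠ 0) {f : R → ℂ} {B : ℝ} (h : ∀ y, ‖f y‖ ≤ B) :
    ‖rsum Q f‖ ≤ nm Q * B := by
  rw [rsum_eq_sum hQ]
  refine (norm_sum_le _ _).trans ((Finset.sum_le_sum fun y _ => h y).trans ?_)
  rw [Finset.sum_const, card_res hQ, nsmul_eq_mul, nm]

theorem rsum_unit {Q : R} (hQ : IsUnit Q) {f : R → ℂ} (hf : Per Q f) : rsum Q f = f 0 := by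
  rw [rsum_eq_of_system hQ.ne_zero hf ({0} : Finset R) id (fun a => ⟨0, by simp, hQ.dvd⟩)
    (fun i hi j hj _ => by simp only [Finset.mem_singleton] at hi hj; rw [hi, hj])]
  simp

open Classical in
theorem rsum_ite {Q : R} (hQ : Q ≠ 0) {f : R → ℂ} (hf : Per Q f) (a : R) :
    rsum Q (fun y => if Q ∣ y - a then f y else 0) = f a := by
  obtain ⟨y, hy, h⟩ := exists_res hQ a
  rw [rsum_eq_sum hQ, Finset.sum_eq_single_of_mem y hy fun z hz hzy => if_neg fun hc => hzy ?_,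
    if_pos (dvd_sub_comm.1 h), hf a y h]
  refine res_inj hz hy ?_
  have : z - y = z - a + (a - y) := by ring
  rw [this]; exact dvd_add hc h

theorem rsum_affine {Q a : R} (hQ : Q ≠ 0) (ha : IsCoprime a Q) {f : R → ℂ} (hf : Per Q f) (b : R) :
    rsum Q (fun y => f (a * y + b)) = rsum Q f := by
  rw [rsum_eq_sum hQ, rsum_eq_of_system hQ hf (res Q) (fun y => a * y + b) (fun c => ?_)
    (fun i hi j hj h => res_inj hi hj ?_)]
  · obtain ⟨u, v, huv⟩ := ha
    obtain ⟨y, hy, h⟩ := exists_res hQ (u * (c - b))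
    refine ⟨y, hy, ?_⟩
    have : c - (a * y + b) = a * (u * (c - b) - y) + Q * (v * (c - b)) := by
      linear_combination (b - c) * huv
    rw [this]; exact dvd_add (h.mul_left a) (dvd_mul_right _ _)
  · have : a * i + b - (a * j + b) = a * (i - j) := by ring
    rw [this] at h
    exact ha.symm.dvd_of_dvd_mul_left h

theorem rsum_shift {Q : R} (hQ : Q ≠ 0) {f : R → ℂ} (hf : Per Q f) (b : R) :
    rsum Q (fun y => f (y + b)) = rsum Q f := by
  simpa using rsum_affine hQ (isCoprime_one_left (x := Q)) hf b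

theorem rsum_mul_arg {Q a : R} (hQ : Q ≠ 0) (ha : IsCoprime a Q) {f : R → ℂ} (hf : Per Q f) :
    rsum Q (fun y => f (a * y)) = rsum Q f := by
  simpa using rsum_affine hQ ha hf 0

theorem rsum_neg_arg {Q : R} (hQ : Q ≠ 0) {f : R → ℂ} (hf : Per Q f) :
    rsum Q (fun y => f (-y)) = rsum Q f := by
  simpa using rsum_affine hQ (isCoprime_one_left (x := Q)).neg_left hf 0

theorem rsum_tower {Q T : R} (hQ : Q ≠ 0) (hT : T ≠ 0) {f : R → ℂ} (hf : Per (Q * T) f) :
    rsum (Q * T) f = rsum Q fun y => rsum T fun z => f (y + Q * z) := by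
  rw [rsum_eq_of_system (mul_ne_zero hQ hT) hf (res Q ×ˢ res T) (fun p => p.1 + Q * p.2),
    Finset.sum_product, rsum_eq_sum hQ]
  · exact Finset.sum_congr rfl fun y _ => (rsum_eq_sum hT fun z => f (y + Q * z)).symm
  · intro a
    obtain ⟨y, hy, w, hw⟩ := exists_res hQ a
    obtain ⟨z, hz, v, hv⟩ := exists_res hT w
    exact ⟨(y, z), Finset.mem_product.2 ⟨hy, hz⟩, v, by linear_combination hw + Q * hv⟩
  · rintro ⟨y, z⟩ hp ⟨y', z'⟩ hp' ⟨v, hv⟩
    rw [Finset.mem_product] at hp hp'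
    dsimp only at hv hp hp'
    have h1 : y = y' := res_inj hp.1 hp'.1 ⟨T * v - z + z', by linear_combination hv⟩
    have h2 : z = z' := res_inj hp.2 hp'.2
      ⟨v, mul_left_cancel₀ hQ (by linear_combination hv - h1)⟩
    rw [h1, h2]

theorem rsum_lift {Q T : R} (hQ : Q ≠ 0) (hT : T ≠ 0) {f : R → ℂ} (hf : Per Q f) :
    rsum (Q * T) f = nm T * rsum Q f := by
  rw [rsum_tower hQ hT (hf.mono (dvd_mul_right Q T)), ← rsum_mul_left]
  congr 1
  funext y
  rw [← rsum_const hT]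
  congr 1
  funext z
  exact hf _ _ ⟨z, by ring⟩

open Classical in
theorem rsum_dvd {d Q : R} (hd : d ≠ 0) (hQ : Q ≠ 0) {f : R → ℂ} (hf : Per (d * Q) f) :
    rsum (d * Q) (fun y => if d ∣ y then f y else 0) = rsum Q fun z => f (d * z) := by
  have h1 : Per (d * Q) fun y => if d ∣ y then f y else 0 := fun a b hab => by
    have h : d ∣ a - b := (dvd_mul_right d Q).trans hab
    have : d ∣ a ↔ d ∣ b := ⟨fun ha => by simpa using dvd_sub ha h, fun hb => by simpa using dvd_add h hb⟩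
    simp only [this, hf a b hab]
  have h2 : Per d fun y => rsum Q fun z => f (y + d * z) := by
    rintro a b ⟨w, hw⟩
    have h3 : Per Q fun z => f (b + d * z) := by
      rintro x x' ⟨v, hv⟩
      exact hf _ _ ⟨v, by linear_combination d * hv⟩
    show (rsum Q fun z => f (a + d * z)) = rsum Q fun z => f (b + d * z)
    rw [← rsum_shift hQ h3 w]
    congr 1
    funext z
    congr 1
    linear_combination hw
  have h4 := rsum_ite hd h2 0
  simp only [sub_zero, zero_add] at h4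
  rw [rsum_tower hd hQ h1, ← h4]
  congr 1
  funext y
  simp only [dvd_add_left (dvd_mul_right d _)]
  split_ifs
  · rfl
  · exact rsum_zero Q

theorem rsum_crt {Q T : R} (hQ : Q ≠ 0) (hT : T ≠ 0) (h : IsCoprime Q T) {f : R → ℂ}
    (hf : Per (Q * T) f) : rsum (Q * T) f = rsum Q fun y => rsum T fun z => f (y * T + z * Q) := by
  rw [rsum_eq_of_system (mul_ne_zero hQ hT) hf (res Q ×ˢ res T) (fun p => p.1 * T + p.2 * Q),
    Finset.sum_product, rsum_eq_sum hQ]
  · exact Finset.sum_congr rfl fun y _ => (rsum_eq_sum hT fun z => f (y * T + z * Q)).symm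
  · intro a
    obtain ⟨u, v, huv⟩ := h
    obtain ⟨y, hy, w, hw⟩ := exists_res hQ (a * v)
    obtain ⟨z, hz, w', hw'⟩ := exists_res hT (a * u)
    exact ⟨(y, z), Finset.mem_product.2 ⟨hy, hz⟩, w + w',
      by linear_combination T * hw + Q * hw' - a * huv⟩
  · rintro ⟨y, z⟩ hp ⟨y', z'⟩ hp' ⟨v, hv⟩
    rw [Finset.mem_product] at hp hp'
    dsimp only at hv hp hp'
    have h1 : y = y' := res_inj hp.1 hp'.1
      (h.dvd_of_dvd_mul_right ⟨T * v - z + z', by linear_combination hv⟩)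
    have h2 : z = z' := res_inj hp.2 hp'.2
      (h.symm.dvd_of_dvd_mul_right ⟨Q * v - y + y', by linear_combination hv⟩)
    rw [h1, h2]

theorem rsum_crt_mul {Q T : R} (hQ : Q ≠ 0) (hT : T ≠ 0) (h : IsCoprime Q T) {f g : R → ℂ}
    (hf : Per Q f) (hg : Per T g) : rsum (Q * T) (fun y => f y * g y) = rsum Q f * rsum T g := by
  rw [rsum_crt hQ hT h ((hf.mono (dvd_mul_right Q T)).mul (hg.mono (dvd_mul_left T Q))),
    ← rsum_mul_arg hQ h.symm hf, ← rsum_mul_arg hT h hg, ← rsum_mul_right]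
  congr 1
  funext y
  rw [← rsum_mul_left]
  congr 1
  funext z
  rw [hf (y * T + z * Q) (T * y) ⟨z, by ring⟩, hg (y * T + z * Q) (Q * z) ⟨y, by ring⟩]

open Classical in
theorem rsum_eQ {Q : R} (hQ : Q ≠ 0) (h : R) :
    rsum Q (fun y => eQ (h * y) Q) = if Q ∣ h then (nm Q : ℂ) else 0 := by
  split_ifs with hh
  · simp only [eQ_of_dvd (hh.mul_right _)]
    rw [rsum_const hQ, mul_one]
  · rw [← eQ_eq_one_iff hQ] at hh
    push Not at hh
    obtain ⟨b, hb⟩ := hh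
    have h1 := rsum_shift hQ (per_eQ h Q) b
    simp only [mul_add, eQ_add] at h1
    rw [rsum_mul_right] at h1
    by_contra h0
    exact hb ((mul_eq_left₀ h0).1 h1)

theorem tsum_eq_rsum {Q : R} (hQ : Q ≠ 0) {f : R → ℂ} (hf : Summable f) :
    ∑' n, f n = rsum Q fun y => ∑' k, f (y + Q * k) := by
  have hb : Function.Bijective fun p : res Q × R => (p.1 : R) + Q * p.2 := by
    constructor
    · rintro ⟨y, z⟩ ⟨y', z'⟩ hv
      dsimp only at hv
      have h1 : (y : R) = y' := res_inj y.2 y'.2 ⟨z' - z, by linear_combination hv⟩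
      have h2 : z = z' := mul_left_cancel₀ hQ (by linear_combination hv - h1)
      rw [Subtype.ext h1, h2]
    · intro a
      obtain ⟨y, hy, w, hw⟩ := exists_res hQ a
      exact ⟨(⟨y, hy⟩, w), by linear_combination -hw⟩
  have h1 := (Equiv.ofBijective _ hb).tsum_eq f
  have h2 := ((Equiv.ofBijective _ hb).summable_iff.2 hf).tsum_prod
  rw [← h1, rsum_eq_sum hQ, ← Finset.tsum_subtype]
  exact h2

/-! ### Finite Fourier transform -/

theorem per_FT (Q : R) (Ψ : R → ℂ) : Per Q (FT Q Ψ) := by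
  intro a b hab
  unfold FT
  congr 1
  funext y
  rw [eQ_congr (y := a * y) (y' := b * y) (by rw [← sub_mul]; exact hab.mul_right y)]

theorem FT_zero (Q : R) (Ψ : R → ℂ) : FT Q Ψ 0 = rsum Q Ψ := by
  simp only [FT, zero_mul, eQ_zero, mul_one]

theorem norm_FT_le {Q : R} (hQ : Q ≠ 0) {Ψ : R → ℂ} {B : ℝ} (h : ∀ y, ‖Ψ y‖ ≤ B) (k : R) :
    ‖FT Q Ψ k‖ ≤ nm Q * B := by
  exact norm_rsum_le hQ fun y => by rw [norm_mul, norm_eQ, mul_one]; exact h y

theorem FT_FT {Q : R} (hQ : Q ≠ 0) {Ψ : R → ℂ} (h : Per Q Ψ) (n : R) :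
    FT Q (FT Q Ψ) n = nm Q * Ψ (-n) := by
  classical
  have h1 : FT Q (FT Q Ψ) n = rsum Q fun k => rsum Q fun y => Ψ y * eQ ((y - -n) * k) Q := by
    unfold FT
    congr 1
    funext k
    rw [← rsum_mul_right]
    congr 1
    funext y
    rw [mul_assoc, ← eQ_add]
    congr 2
    ring
  rw [h1, rsum_comm hQ hQ, ← rsum_ite hQ (h.comp fun c => nm Q * c) (-n)]
  congr 1
  funext y
  rw [rsum_mul_left, rsum_eQ hQ]
  split_ifs
  · exact mul_comm _ _
  · exact mul_zero _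

theorem FT_inv {Q : R} (hQ : Q ≠ 0) {Ψ : R → ℂ} (h : Per Q Ψ) (n : R) :
    Ψ n = (nm Q : ℂ)⁻¹ * rsum Q fun k => FT Q Ψ k * eQ (-(k * n)) Q := by
  have h1 := FT_FT hQ h (-n)
  rw [neg_neg] at h1
  have h2 : (nm Q : ℂ) ≠ 0 := Complex.ofReal_ne_zero.2 (nm_pos hQ).ne'
  rw [eq_inv_mul_iff_mul_eq₀ h2, ← h1]
  conv_lhs => unfold FT
  congr 1
  funext k
  rw [neg_mul, mul_comm n k]
  rfl

theorem rsb_conj_FT (Q : R) (Ψ : R → ℂ) (k : R) :
    conj (FT Q Ψ k) = FT Q (fun y => conj (Ψ y)) (-k) := by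
  unfold FT
  rw [conj_rsum]
  congr 1
  funext y
  rw [map_mul, neg_mul, eQ_neg]

theorem FT_parseval {Q : R} (hQ : Q ≠ 0) {Ψ Φ : R → ℂ} (h : Per Q Ψ) (h' : Per Q Φ) :
    rsum Q (fun k => FT Q Ψ k * conj (FT Q Φ k)) = nm Q * rsum Q fun y => Ψ y * conj (Φ y) := by
  have h2 : (nm Q : ℂ) ≠ 0 := Complex.ofReal_ne_zero.2 (nm_pos hQ).ne'
  have h1 : (fun k => FT Q Ψ k * conj (FT Q Φ k)) =
      fun k => rsum Q fun y => FT Q Ψ k * eQ (-(k * y)) Q * conj (Φ y) := by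
    funext k
    rw [rsb_conj_FT]
    generalize FT Q Ψ k = c
    rw [FT, ← rsum_mul_left]
    congr 1
    funext y
    rw [neg_mul]
    ring
  rw [h1, rsum_comm hQ hQ, ← rsum_mul_left]
  congr 1
  funext y
  rw [rsum_mul_right, ← mul_assoc]
  congr 1
  exact ((eq_inv_mul_iff_mul_eq₀ h2).1 (FT_inv hQ h y)).symm

theorem conj_FT (Q : R) (Ψ : R → ℂ) (k : R) :
    conj (FT Q Ψ k) = FT Q (fun y => conj (Ψ y)) (-k) := by
  exact rsb_conj_FT Q Ψ k

theorem FT_mul_arg {Q a : R} (hQ : Q ≠ 0) (ha : IsCoprime a Q) {Ψ : R → ℂ} (h : Per Q Ψ) (k : R) :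
    FT Q (fun y => Ψ (a * y)) (a * k) = FT Q Ψ k := by
  unfold FT
  rw [← rsum_mul_arg hQ ha (h.mul (per_eQ k Q))]
  congr 1
  funext y
  congr 2
  ring

theorem FT_unit_mul {u : R} (hu : IsUnit u) (Q : R) (Ψ : R → ℂ) (k : R) :
    FT (u * Q) Ψ (u * k) = FT Q Ψ k := by
  unfold FT
  rw [rsum_assoc (associated_unit_mul_left Q u hu)]
  congr 1
  funext y
  rw [mul_assoc, eQ_mul_cancel hu.ne_zero]

theorem FT_lift {Q T : R} (hQ : Q ≠ 0) (hT : T ≠ 0) {Ψ : R → ℂ} (h : Per Q Ψ) (k : R) :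
    FT (Q * T) Ψ (T * k) = nm T * FT Q Ψ k := by
  unfold FT
  rw [← rsum_lift hQ hT (h.mul (per_eQ k Q))]
  congr 1
  funext y
  rw [mul_assoc, mul_comm Q T, eQ_mul_cancel hT]

theorem FT_lift_zero {Q T k : R} (hQ : Q ≠ 0) (hT : T ≠ 0) {Ψ : R → ℂ} (h : Per Q Ψ)
    (hk : ¬ T ∣ k) : FT (Q * T) Ψ k = 0 := by
  unfold FT
  rw [rsum_tower hQ hT ((h.mono (dvd_mul_right Q T)).mul (per_eQ k (Q * T))), ← rsum_zero Q]
  congr 1
  funext y
  have h1 : (fun z => Ψ (y + Q * z) * eQ (k * (y + Q * z)) (Q * T)) =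
      fun z => Ψ y * eQ (k * y) (Q * T) * eQ (k * z) T := by
    funext z
    rw [h (y + Q * z) y ⟨z, by ring⟩, mul_add, eQ_add, mul_left_comm k Q z, eQ_mul_cancel hQ, mul_assoc]
  rw [h1, rsum_mul_left, rsum_eQ hT, if_neg hk, mul_zero]

theorem FT_crt {Q T : R} (hQ : Q ≠ 0) (hT : T ≠ 0) (h : IsCoprime Q T) {Ψ Φ : R → ℂ}
    (hΨ : Per Q Ψ) (hΦ : Per T Φ) (k : R) :
    FT (Q * T) (fun y => Ψ y * Φ y) k =
      FT Q (fun y => Ψ (T * y)) k * FT T (fun y => Φ (Q * y)) k := by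
  unfold FT
  rw [rsum_crt hQ hT h (((hΨ.mono (dvd_mul_right Q T)).mul (hΦ.mono (dvd_mul_left T Q))).mul
    (per_eQ k (Q * T))), ← rsum_mul_right]
  congr 1
  funext y
  rw [← rsum_mul_left]
  congr 1
  funext z
  rw [hΨ (y * T + z * Q) (T * y) ⟨z, by ring⟩, hΦ (y * T + z * Q) (Q * z) ⟨y, by ring⟩,
    show k * (y * T + z * Q) = k * y * T + k * z * Q by ring, eQ_split hQ hT]
  ring

end Crest.Agent.R27.Ab
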