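import Crest.Agent.R27.A.Rsum

/-!
Row 27, abstract API (owner helper19): the sextic and cubic symbols.  Port of `R17/A/Sym.lean`; the hypotheses
`IsCoprime n 6`, `IsCoprime n 3`, `IsCoprime n 2` become `n ≠ 0` (and are dropped for primes).
-/

set_option autoImplicit false
set_option linter.unusedSectionVars false

namespace Crest.Agent.R27.Ab

open scoped ComplexConjugate

variable {R : Type} [CommRing R] [IsDomain R] [IsPrincipalIdealRing R] [Ar R]

@[simp] theorem sx_zero_right (u : R) : sx u 0 = 0 := Ar.sx_zero u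

theorem sx_mul_left (u v n : R) : sx (u * v) n = sx u n * sx v n := Ar.sx_mul_left u v n

theorem sx_mul_right (u m n : R) : sx u (m * n) = sx u m * sx u n := Ar.sx_mul_right u m n

theorem sx_congr {u v n : R} (h : n ∣ u - v) : sx u n = sx v n := Ar.sx_congr u v n h

open Classical in
theorem sx_pow_six (u n : R) : sx u n ^ 6 = if n ≠ 0 ∧ IsCoprime u n then 1 else 0 := by
  by_cases hn : n = 0
  · simp [hn]
  · have h : sx u n ^ 6 = if IsCoprime u n then 1 else 0 := Ar.sx_pow_six u n hn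
    rw [h]
    simp [hn]

theorem sx_ne_zero {u n : R} : sx u n ≠ 0 ↔ n ≠ 0 ∧ IsCoprime u n := by
  have h := sx_pow_six u n
  constructor
  · intro h0
    by_contra hc
    rw [if_neg hc] at h
    exact h0 (pow_eq_zero_iff (by norm_num) |>.1 h)
  · intro hc h0
    rw [if_pos hc, h0] at h
    norm_num at h

theorem sx_one_left {n : R} (h : n ≠ 0) : sx 1 n = 1 := by
  have h1 := sx_mul_left 1 1 n
  rw [mul_one] at h1
  exact (mul_eq_left₀ (sx_ne_zero.2 ⟨h, isCoprime_one_left⟩)).1 h1.symm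

@[simp] theorem sx_one_right (u : R) : sx u 1 = 1 := by
  have h1 := sx_mul_right u 1 1
  rw [mul_one] at h1
  exact (mul_eq_left₀ (sx_ne_zero.2 ⟨one_ne_zero, isCoprime_one_right⟩)).1 h1.symm

theorem sx_unit_right (u : R) {n : R} (h : IsUnit n) : sx u n = 1 := by
  rw [sx_congr (v := 1) h.dvd, sx_one_left h.ne_zero]

theorem sx_assoc (u : R) {n n' : R} (h : Associated n n') : sx u n = sx u n' := by
  obtain ⟨e, rfl⟩ := h
  rw [sx_mul_right, sx_unit_right _ e.isUnit, mul_one]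

theorem sx_pow_right (u n : R) (k : ℕ) : sx u (n ^ k) = sx u n ^ k := by
  induction k with
  | zero => simp
  | succ k ih => rw [pow_succ, sx_mul_right, ih, pow_succ]

theorem sx_pow_left (u n : R) {k : ℕ} (hk : k ≠ 0) : sx (u ^ k) n = sx u n ^ k := by
  induction k with
  | zero => exact absurd rfl hk
  | succ k ih =>
    by_cases h : k = 0
    · simp [h]
    · rw [pow_succ, sx_mul_left, ih h, pow_succ]

theorem sx_pow_left' (u : R) {n : R} (h : n ≠ 0) (k : ℕ) : sx (u ^ k) n = sx u n ^ k := by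
  by_cases hk : k = 0
  · rw [hk, pow_zero, pow_zero, sx_one_left h]
  · exact sx_pow_left u n hk

theorem sx_prod_right {ι : Type*} (u : R) (s : Finset ι) (f : ι → R) :
    sx u (∏ i ∈ s, f i) = ∏ i ∈ s, sx u (f i) := by
  induction s using Finset.cons_induction with
  | empty => simp
  | cons a s ha ih => rw [Finset.prod_cons, Finset.prod_cons, sx_mul_right, ih]

theorem sx_prod_left {ι : Type*} (s : Finset ι) (f : ι → R) {n : R} (h : n ≠ 0) :
    sx (∏ i ∈ s, f i) n = ∏ i ∈ s, sx (f i) n := by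
  induction s using Finset.cons_induction with
  | empty => simp [sx_one_left h]
  | cons a s ha ih => rw [Finset.prod_cons, Finset.prod_cons, sx_mul_left, ih]

/-- only the residues modulo the prime divisors of `n` matter -/
theorem sx_congr_rad {u v n : R} (h : ∀ p, Prime p → p ∣ n → p ∣ u - v) : sx u n = sx v n := by
  induction n using UniqueFactorizationMonoid.induction_on_prime with
  | h₁ => simp
  | h₂ n hn => simp [sx_unit_right _ hn]
  | h₃ n p _ hp ih =>
    rw [sx_mul_right, sx_mul_right, ih fun q hq hd => h q hq (hd.mul_left p),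
      sx_congr (h p hp (dvd_mul_right p n))]

theorem per_sx (n : R) : Per n fun y => sx y n := fun _ _ h => sx_congr h

theorem sx_eq_zero_of_not_coprime {u n : R} (h : ¬ IsCoprime u n) : sx u n = 0 :=
  by_contra fun h' => h (sx_ne_zero.1 h').2

theorem sx_pow_add_six (u n : R) {j : ℕ} (hj : j ≠ 0) : sx u n ^ (j + 6) = sx u n ^ j := by
  rw [pow_add, sx_pow_six]
  split_ifs with h
  · rw [mul_one]
  · rw [not_not.1 (sx_ne_zero.not.2 h), zero_pow hj, zero_mul]

theorem sx_pow_mod {u n : R} (h6 : n ≠ 0) (h : IsCoprime u n) (j : ℕ) :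
    sx u n ^ j = sx u n ^ (j % 6) := by
  exact pow_eq_pow_mod j (by rw [sx_pow_six, if_pos ⟨h6, h⟩])

theorem norm_sx {u n : R} (h6 : n ≠ 0) (h : IsCoprime u n) : ‖sx u n‖ = 1 :=
  Complex.norm_eq_one_of_pow_eq_one ((sx_pow_six u n).trans (if_pos ⟨h6, h⟩)) (by norm_num)

theorem norm_sx_le (u n : R) : ‖sx u n‖ ≤ 1 := by
  by_cases h : sx u n = 0
  · simp [h]
  · exact (norm_sx (sx_ne_zero.1 h).1 (sx_ne_zero.1 h).2).le

theorem conj_sx (u n : R) : conj (sx u n) = sx u n ^ 5 := by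
  by_cases h : sx u n = 0
  · simp [h]
  · obtain ⟨h1, h2⟩ := sx_ne_zero.1 h
    rw [← Complex.inv_eq_conj (norm_sx h1 h2)]
    refine inv_eq_of_mul_eq_one_right ?_
    rw [← pow_succ', sx_pow_six, if_pos ⟨h1, h2⟩]

open Classical in
theorem sx_mul_conj (u n : R) :
    sx u n * conj (sx u n) = if n ≠ 0 ∧ IsCoprime u n then 1 else 0 := by
  rw [conj_sx, ← pow_succ', sx_pow_six]

theorem conj_sx_cube (u n : R) : conj (sx u n ^ 3) = sx u n ^ 3 := by
  rw [map_pow, conj_sx, ← pow_mul, show 5 * 3 = 3 + 6 + 6 by norm_num,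
    sx_pow_add_six u n (by norm_num), sx_pow_add_six u n (by norm_num)]

theorem sx_cube_eq_or (u n : R) : sx u n ^ 3 = 0 ∨ sx u n ^ 3 = 1 ∨ sx u n ^ 3 = -1 := by
  have h := sx_pow_six u n
  rw [show 6 = 3 * 2 by norm_num, pow_mul] at h
  split_ifs at h
  · exact Or.inr (sq_eq_one_iff.1 h)
  · exact Or.inl (pow_eq_zero_iff two_ne_zero |>.1 h)

open Classical in
theorem sx_sq_cube (u n : R) :
    sx (u ^ 2) n ^ 3 = if n ≠ 0 ∧ IsCoprime u n then 1 else 0 := by
  rw [sx_pow_left u n two_ne_zero, ← pow_mul, sx_pow_six]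

theorem sx_prime_eq_zero {p u : R} (hp : Prime p) : sx u p = 0 ↔ p ∣ u := by
  rw [← not_iff_not, ← Ne, sx_ne_zero, isCoprime_comm, hp.coprime_iff_not_dvd]
  exact and_iff_right hp.ne_zero

theorem sx_neg_one_cube (n : R) : sx (-1) n ^ 3 = sx (-1) n := by
  rw [← sx_pow_left _ n (by norm_num)]
  norm_num

theorem conj_sx_neg_one (n : R) : conj (sx (-1) n) = sx (-1) n := by
  rw [← sx_neg_one_cube, conj_sx_cube]

theorem sx_neg_one_sq {n : R} (h : n ≠ 0) : sx (-1) n ^ 2 = 1 := by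
  rw [← sx_pow_left' _ h, neg_one_sq, sx_one_left h]

theorem sx_neg_left (u n : R) : sx (-u) n = sx (-1) n * sx u n := by
  rw [← sx_mul_left, neg_one_mul]

theorem exists_sx_prim {p : R} (hp : Prime p) : ∃ u, IsPrimitiveRoot (sx u p) 6 := Ar.sx_prim p hp

theorem sya_out (p u : R) : p ∣ Quotient.out (Ideal.Quotient.mk (Ideal.span {p}) u) - u := by
  rw [← Ideal.Quotient.eq_zero_iff_dvd, map_sub, Ideal.Quotient.mk_out, sub_self]

/-- the symbol modulo a prime as a character of exact order six -/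
theorem exists_sxChar {p : R} (hp : Prime p) :
    ∃ χ : MulChar (R ⧸ Ideal.span {p}) ℂ, orderOf χ = 6 ∧
      ∀ u : R, χ (Ideal.Quotient.mk _ u) = sx u p := by
  have : (Ideal.span {p}).IsMaximal := PrincipalIdealRing.isMaximal_of_irreducible hp.irreducible
  let : Field (R ⧸ Ideal.span {p}) := Ideal.Quotient.field _
  have key : ∀ u, sx (Quotient.out (Ideal.Quotient.mk (Ideal.span {p}) u)) p = sx u p :=
    fun u => sx_congr (sya_out p u)
  let χ : MulChar (R ⧸ Ideal.span {p}) ℂ :=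
    { toFun := fun x => sx (Quotient.out x) p
      map_one' := (key 1).trans (sx_one_left hp.ne_zero)
      map_mul' := fun x y => by
        obtain ⟨x, rfl⟩ := Ideal.Quotient.mk_surjective x
        obtain ⟨y, rfl⟩ := Ideal.Quotient.mk_surjective y
        rw [← map_mul, key, key, key, sx_mul_left]
      map_nonunit' := fun x hx => by
        obtain rfl : x = 0 := by simpa using hx
        exact (key 0).trans ((sx_prime_eq_zero hp).2 (dvd_zero p)) }
  have hχ : ∀ u : R, χ (Ideal.Quotient.mk _ u) = sx u p := key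
  refine ⟨χ, (orderOf_eq_iff (by norm_num)).2 ⟨MulChar.ext fun a => ?_, fun m hm hm0 h => ?_⟩, hχ⟩
  · obtain ⟨x, hx⟩ := Ideal.Quotient.mk_surjective (a : R ⧸ Ideal.span {p})
    rw [MulChar.pow_apply_coe, MulChar.one_apply_coe, ← hx, hχ, sx_pow_six, if_pos]
    refine ⟨hp.ne_zero, (hp.coprime_iff_not_dvd.2 fun hd => a.ne_zero ?_).symm⟩
    rw [← hx, Ideal.Quotient.eq_zero_iff_dvd]
    exact hd
  · obtain ⟨u, hu⟩ := exists_sx_prim hp
    have h1 : (χ ^ m) (Ideal.Quotient.mk _ u) = sx u p ^ m := by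
      rw [MulChar.pow_apply' _ hm0.ne', hχ]
    have h2 : IsUnit (Ideal.Quotient.mk (Ideal.span {p}) u) := by
      rw [isUnit_iff_ne_zero, Ne, Ideal.Quotient.eq_zero_iff_dvd]
      intro hd
      exact hu.ne_zero (by norm_num) ((sx_prime_eq_zero hp).2 hd)
    rw [h, MulChar.one_apply h2] at h1
    exact hu.pow_ne_one_of_pos_of_lt hm0.ne' hm h1.symm

theorem rsum_sx_pow {p : R} (hp : Prime p) {j : ℕ} (hj : ¬ 6 ∣ j) :
    rsum p (fun y => sx y p ^ j) = 0 := by
  obtain ⟨u, hu⟩ := exists_sx_prim hp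
  have h := rsum_mul_arg hp.ne_zero (sx_ne_zero.1 (hu.ne_zero (by norm_num))).2 ((per_sx p).comp (· ^ j))
  simp only [sx_mul_left, mul_pow, rsum_mul_left] at h
  have h1 : sx u p ^ j ≠ 1 := fun h' => hj ((hu.pow_eq_one_iff_dvd j).1 h')
  exact (mul_eq_zero.1 (show (sx u p ^ j - 1) * _ = 0 by linear_combination h)).resolve_left
    (sub_ne_zero.2 h1)

theorem sya_quad {k : Type} [Field k] [Finite k] {χ χ' : MulChar k ℂ} (h : χ ^ 2 = 1) (h1 : χ ≠ 1)
    (h' : χ' ^ 2 = 1) (h1' : χ' ≠ 1) : χ = χ' := by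
  obtain ⟨g, hg⟩ := IsCyclic.exists_generator (α := kˣ)
  have key : ∀ ξ : MulChar k ℂ, ξ ^ 2 = 1 → ξ ≠ 1 → ξ g = -1 := fun ξ a b => by
    have e : ξ g ^ 2 = 1 := by rw [← MulChar.pow_apply_coe, a, MulChar.one_apply_coe]
    refine (sq_eq_one_iff.1 e).resolve_left fun c => b ((MulChar.eq_iff hg _ _).2 ?_)
    rw [c, MulChar.one_apply_coe]
  rw [MulChar.eq_iff hg, key χ h h1, key χ' h' h1']

/-- the quadratic symbol counts square roots -/
theorem rsum_sq {p : R} (hp : Prime p) {f : R → ℂ} (hf : Per p f) :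
    rsum p (fun y => f (y ^ 2)) = rsum p fun y => (1 + sx y p ^ 3) * f y := by
  classical
  have : (Ideal.span {p}).IsMaximal := PrincipalIdealRing.isMaximal_of_irreducible hp.irreducible
  let : Field (R ⧸ Ideal.span {p}) := Ideal.Quotient.field _
  have := finite_quot hp.ne_zero
  let : Fintype (R ⧸ Ideal.span {p}) := Fintype.ofFinite _
  have hc : ringChar (R ⧸ Ideal.span {p}) ≠ 2 := fun h => by
    have h2 := (ringChar.spec (R ⧸ Ideal.span {p}) 2).2 (h ▸ dvd_rfl)
    rw [← map_natCast (Ideal.Quotient.mk (Ideal.span {p})), Ideal.Quotient.eq_zero_iff_dvd] at h2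
    exact hp.not_isUnit (isUnit_of_dvd_unit (by exact_mod_cast h2) isUnit_two)
  have hq : ∀ y, sx y p ^ 3 = (quadraticChar _ (Ideal.Quotient.mk (Ideal.span {p}) y) : ℤ) := by
    intro y
    obtain ⟨χ, ho, hχ⟩ := exists_sxChar hp
    have e := sya_quad (χ := χ ^ 3)
      (χ' := (quadraticChar (R ⧸ Ideal.span {p})).ringHomComp (Int.castRingHom ℂ))
      (by rw [← pow_mul, ← orderOf_dvd_iff_pow_eq_one, ho])
      (by rw [Ne, ← orderOf_dvd_iff_pow_eq_one, ho]; norm_num)
      (by rw [MulChar.ringHomComp_pow, (quadraticChar_isQuadratic _).sq_eq_one, MulChar.ringHomComp_one])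
      ((MulChar.ringHomComp_ne_one_iff (RingHom.injective_int _)).2 (quadraticChar_ne_one hc))
    have e' := congrArg (fun ξ : MulChar _ ℂ => ξ (Ideal.Quotient.mk (Ideal.span {p}) y)) e
    simp only [MulChar.ringHomComp_apply, eq_intCast] at e'
    rwa [MulChar.pow_apply' _ (by norm_num), hχ] at e'
  have hG : ∀ y, f y = f (Quotient.out (Ideal.Quotient.mk (Ideal.span {p}) y)) :=
    fun y => (hf _ _ (sya_out p y)).symm
  have e1 := rsum_eq_quot (Q := p) fun x => f (Quotient.out (x ^ 2))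
  have e2 := rsum_eq_quot (Q := p) fun x =>
    (1 + ((quadraticChar _ x : ℤ) : ℂ)) * f (Quotient.out x)
  simp only [← map_pow, ← hG, ← hq] at e1 e2
  rw [e1, e2, ← Finset.sum_fiberwise' Finset.univ (fun x => x ^ 2) fun x => f (Quotient.out x)]
  refine Finset.sum_congr rfl fun a _ => ?_
  have := quadraticChar_card_sqrts hc a
  rw [Set.toFinset_ofPred] at this
  rw [Finset.sum_const, nsmul_eq_mul, add_comm]
  congr 1
  have h2 := congrArg (Int.cast : ℤ → ℂ) this
  push_cast at h2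
  convert h2

/-! ### Reciprocity -/

theorem sx_recip {a b : R} (ha : a ≠ 0) (hb : b ≠ 0) : sx a b = hs (cls a) (cls b) * sx b a := Ar.recip a b ha hb

theorem hs_diag {a : R} (ha : a ≠ 0) : hs (cls a) (cls a) = sx (-1) a := Ar.hs_diag a ha

theorem sx_unit_left {u b : R} (hu : IsUnit u) (hb : b ≠ 0) : sx u b = hs (cls u) (cls b) := by
  rw [sx_recip hu.ne_zero hb, sx_unit_right _ hu, mul_one]

theorem sx_neg_one_cls {a b : R} (ha : a ≠ 0) (hb : b ≠ 0) (h : cls a = cls b) : sx (-1) a = sx (-1) b := by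
  rw [← hs_diag ha, ← hs_diag hb, h]

/-- skew symmetry on classes of non-zero elements -/
theorem hs_swap {a b : R} (ha : a ≠ 0) (hb : b ≠ 0) : hs (cls b) (cls a) = conj (hs (cls a) (cls b)) := by
  have h1 := hs_diag (mul_ne_zero ha hb)
  rw [cls_mul ha hb, hs_mul_left, hs_mul_right, hs_mul_right, hs_diag ha, hs_diag hb, sx_mul_right] at h1
  have h2 : sx (-1) a * sx (-1) b ≠ 0 := mul_ne_zero (sx_ne_zero.2 ⟨ha, isCoprime_one_left.neg_left⟩)
    (sx_ne_zero.2 ⟨hb, isCoprime_one_left.neg_left⟩)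
  refine mul_left_cancel₀ (hs_ne_zero (cls a) (cls b)) ?_
  rw [hs_mul_conj]
  exact mul_left_cancel₀ h2 (by linear_combination h1)

/-! ### The cubic symbol -/

theorem sx_sq (u n : R) : sx u n ^ 2 = cb u n := rfl

@[simp] theorem cb_zero_right (u : R) : cb u 0 = 0 := by simp [cb]

@[simp] theorem cb_one_right (u : R) : cb u 1 = 1 := by simp [cb]

theorem cb_one_left {n : R} (h : n ≠ 0) : cb 1 n = 1 := by rw [cb, sx_one_left h, one_pow]

theorem cb_unit_right (u : R) {n : R} (h : IsUnit n) : cb u n = 1 := by rw [cb, sx_unit_right u h, one_pow]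

theorem cb_assoc (u : R) {n n' : R} (h : Associated n n') : cb u n = cb u n' := by rw [cb, sx_assoc u h, cb]

theorem cb_mul_right (u m n : R) : cb u (m * n) = cb u m * cb u n := by simp only [cb, sx_mul_right, mul_pow]

theorem cb_mul_left (u v n : R) : cb (u * v) n = cb u n * cb v n := by simp only [cb, sx_mul_left, mul_pow]

theorem cb_pow_right (u n : R) (k : ℕ) : cb u (n ^ k) = cb u n ^ k := by
  rw [cb, sx_pow_right, cb, pow_right_comm]

theorem cb_pow_left (u n : R) {k : ℕ} (hk : k ≠ 0) : cb (u ^ k) n = cb u n ^ k := by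
  rw [cb, sx_pow_left u n hk, cb, pow_right_comm]

theorem cb_pow_left' (u : R) {n : R} (h : n ≠ 0) (k : ℕ) : cb (u ^ k) n = cb u n ^ k := by
  rw [cb, sx_pow_left' u h, cb, pow_right_comm]

theorem cb_prod_right {ι : Type*} (u : R) (s : Finset ι) (f : ι → R) :
    cb u (∏ i ∈ s, f i) = ∏ i ∈ s, cb u (f i) := by
  simp only [cb, sx_prod_right, Finset.prod_pow]

theorem cb_prod_left {ι : Type*} (s : Finset ι) (f : ι → R) {n : R} (h : n ≠ 0) :
    cb (∏ i ∈ s, f i) n = ∏ i ∈ s, cb (f i) n := by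
  simp only [cb, sx_prod_left s f h, Finset.prod_pow]

theorem cb_congr_rad {u v n : R} (h : ∀ p, Prime p → p ∣ n → p ∣ u - v) : cb u n = cb v n := by
  rw [cb, sx_congr_rad h, cb]

theorem cb_congr {u v n : R} (h : n ∣ u - v) : cb u n = cb v n := by rw [cb, sx_congr h, cb]

theorem per_cb (n : R) : Per n fun y => cb y n := fun _ _ h => cb_congr h

theorem cb_ne_zero {u n : R} : cb u n ≠ 0 ↔ n ≠ 0 ∧ IsCoprime u n := by
  rw [cb, ← sx_ne_zero]
  exact pow_ne_zero_iff two_ne_zero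

theorem cb_eq_zero_of_not_coprime {u n : R} (h : ¬ IsCoprime u n) : cb u n = 0 :=
  not_not.1 fun h' => h (cb_ne_zero.1 h').2

open Classical in
theorem cb_pow_three (u n : R) : cb u n ^ 3 = if n ≠ 0 ∧ IsCoprime u n then 1 else 0 := by
  rw [cb, ← pow_mul, sx_pow_six]

theorem cb_pow_add_three (u n : R) {j : ℕ} (hj : j ≠ 0) : cb u n ^ (j + 3) = cb u n ^ j := by
  rw [pow_add, cb_pow_three]
  split_ifs with h
  · rw [mul_one]
  · rw [not_not.1 (mt cb_ne_zero.1 h), zero_pow hj, mul_zero]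

theorem cb_neg_left (u n : R) : cb (-u) n = cb u n := by
  by_cases h : n = 0
  · simp [h]
  · rw [cb, sx_neg_left, mul_pow, sx_neg_one_sq h, one_mul, cb]

theorem norm_cb_le (u n : R) : ‖cb u n‖ ≤ 1 := by
  by_cases h : cb u n = 0
  · rw [h, norm_zero]
    exact zero_le_one
  · exact (Complex.norm_eq_one_of_pow_eq_one
      ((cb_pow_three u n).trans (if_pos (cb_ne_zero.1 h))) three_ne_zero).le

theorem norm_cb {u n : R} (h3 : n ≠ 0) (h : IsCoprime u n) : ‖cb u n‖ = 1 := by
  exact Complex.norm_eq_one_of_pow_eq_one ((cb_pow_three u n).trans (if_pos ⟨h3, h⟩)) three_ne_zero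

theorem conj_cb (u n : R) : conj (cb u n) = cb u n ^ 2 := by
  by_cases h : cb u n = 0
  · rw [h, map_zero, zero_pow two_ne_zero]
  · obtain ⟨h1, h2⟩ := cb_ne_zero.1 h
    rw [← Complex.inv_eq_conj (norm_cb h1 h2)]
    refine inv_eq_of_mul_eq_one_right ?_
    rw [← pow_succ', cb_pow_three, if_pos ⟨h1, h2⟩]

open Classical in
theorem cb_mul_conj (u n : R) :
    cb u n * conj (cb u n) = if n ≠ 0 ∧ IsCoprime u n then 1 else 0 := by
  rw [conj_cb, ← pow_succ', cb_pow_three]

theorem cb_prime_eq_zero {p u : R} (hp : Prime p) : cb u p = 0 ↔ p ∣ u := by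
  rw [cb, pow_eq_zero_iff two_ne_zero, sx_prime_eq_zero hp]

theorem sx_eq_mul (u n : R) : sx u n = sx u n ^ 3 * cb u n ^ 2 := by
  rw [← sx_sq u n, ← pow_mul, ← pow_add, show 3 + 2 * 2 = 1 + 6 from rfl,
    sx_pow_add_six u n one_ne_zero, pow_one]

theorem rsum_cb_pow {p : R} (hp : Prime p) {j : ℕ} (hj : ¬ 3 ∣ j) :
    rsum p (fun y => cb y p ^ j) = 0 := by
  simp only [cb, ← pow_mul]
  exact rsum_sx_pow hp (by omega)

theorem cb_recip {a b : R} (ha : a ≠ 0) (hb : b ≠ 0) : cb a b = hs (cls a) (cls b) ^ 2 * cb b a := by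
  rw [cb, sx_recip ha hb, mul_pow, cb]

/-- `J(χ₃, χ₃) = -al p √(N p)` -/
theorem jacobi_cb {p : R} (hp : Prime p) :
    rsum p (fun y => cb y p * cb (1 - y) p) = -al p * (Real.sqrt (nm p) : ℂ) := Ar.jac p hp

end Crest.Agent.R27.Ab
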